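import Vale.Agent.P132.Basic

/-! Internal notions for the strong Kadison-Kastler theorem (P096). -/

open scoped InnerProductSpace Topology
open Filter

namespace Vale.Agent.P096

open Vale.Agent.P104 Vale.Agent.P132

universe u v w

section Near

variable {K : Type*} [NormedAddCommGroup K] [InnerProductSpace ℂ K] [CompleteSpace K]

/-- Near inclusion. -/
def Near (γ : ℝ) (A B : Set (K →L[ℂ] K)) : Prop := ∀ x ∈ A, ∃ y ∈ B, ‖x - y‖ ≤ γ * ‖x‖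

/-- Near inclusion in both directions. -/
def Close (γ : ℝ) (N M : VonNeumannAlgebra K) : Prop :=
  Near γ (N : Set (K →L[ℂ] K)) M ∧ Near γ (M : Set (K →L[ℂ] K)) N

/-- `θ` is linear on `N`. -/
def LinOn (N : VonNeumannAlgebra K) (θ : (K →L[ℂ] K) → (K →L[ℂ] K)) : Prop :=
  (∀ x ∈ N, ∀ y ∈ N, θ (x + y) = θ x + θ y) ∧ ∀ c : ℂ, ∀ x ∈ N, θ (c • x) = c • θ x

/-- A linear map from `N` to `M` close to `a`. -/
def LiftTo (ε : ℝ) (N M : VonNeumannAlgebra K) (a : (K →L[ℂ] K) → (K →L[ℂ] K)) : Prop :=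
  ∃ θ, LinOn N θ ∧ ∀ x ∈ N, θ x ∈ M ∧ ‖θ x - a x‖ ≤ ε * ‖x‖

/-- A linear map from `N` to `M` close to the inclusion. -/
def Lift (ε : ℝ) (N M : VonNeumannAlgebra K) : Prop := LiftTo ε N M fun x => x

/-- The centralizer of the vector state. -/
def Cen (N : VonNeumannAlgebra K) (ξ : K) : Set (K →L[ℂ] K) :=
  {a | a ∈ N ∧ ∀ x ∈ N, ⟪ξ, (a * x) ξ⟫_ℂ = ⟪ξ, (x * a) ξ⟫_ℂ}

/-- Two commuting unital systems of two by two matrix units inside `S`. -/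
def M22 (S : Set (K →L[ℂ] K)) : Prop :=
  ∃ e f : Fin 2 → Fin 2 → (K →L[ℂ] K), IsMU 1 e ∧ IsMU 1 f ∧
    (∀ i j k l, Commute (e i j) (f k l)) ∧ ∀ i j, e i j ∈ S ∧ f i j ∈ S

/-- Trace vector. -/
def Tr (N : VonNeumannAlgebra K) (ξ : K) : Prop := ∀ x ∈ N, ‖star x ξ‖ = ‖x ξ‖

/-- Vectors invariant under the unitaries of the centralizer come from the centre. -/
def Erg (N : VonNeumannAlgebra K) (ξ : K) : Prop :=
  ∀ v : K, (∀ g ∈ Cen N ξ, g ∈ unitary (K →L[ℂ] K) → ∀ x ∈ N,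
      ⟪v, (g * x * star g) ξ⟫_ℂ = ⟪v, x ξ⟫_ℂ) →
    (∀ z ∈ N, z ∈ N.commutant → ⟪v, z ξ⟫_ℂ = 0) → v = 0

/-- Relative Dixmier property for almost invariant unitaries. -/
def RD (N : VonNeumannAlgebra K) (ξ : K) : Prop :=
  ∀ y ∈ N, ∀ v : K, ∀ δ : ℝ, 0 < δ → ∃ u ∈ N, u ∈ unitary (K →L[ℂ] K) ∧
    (∀ x ∈ N, ‖⟪ξ, (star u * x * u) ξ⟫_ℂ - ⟪ξ, x ξ⟫_ℂ‖ ≤ δ * ‖x‖) ∧
    ∃ z ∈ N, z ∈ N.commutant ∧ ‖z‖ ≤ ‖y‖ ∧ (⟪v, (u * y * star u - z) ξ⟫_ℂ).re ≤ δ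

end Near

/-- Properties of pairs of algebras. -/
abbrev PairProp : Type (u + 1) :=
  ∀ (K : Type u) [NormedAddCommGroup K] [InnerProductSpace ℂ K] [CompleteSpace K],
    VonNeumannAlgebra K → VonNeumannAlgebra K → Prop

/-- Uniform linear lifting for pairs with property `P`. -/
def KK (P : PairProp.{u}) : Prop :=
  ∀ ε : ℝ, 0 < ε → ∃ δ : ℝ, 0 < δ ∧ ∀ (K : Type u) [NormedAddCommGroup K] [InnerProductSpace ℂ K]
    [CompleteSpace K] (N M : VonNeumannAlgebra K), P K N M → Close δ N M → Lift ε N M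

def P0 : PairProp.{u} := fun _ _ _ _ _ _ => True

def P1 : PairProp.{u} := fun _ _ _ _ N _ => ∃ ξ, Cyc N ξ ∧ Sep N ξ

def P2 : PairProp.{u} := fun _ _ _ _ N _ => ∃ ξ, Cyc N ξ ∧ Sep N ξ ∧ RD N ξ ∧ M22 (Cen N ξ)

def P3 : PairProp.{u} := fun _ _ _ _ N _ => ∃ ξ, Cyc N ξ ∧ Sep N ξ ∧ Erg N ξ ∧ M22 (Cen N ξ)

def P4 : PairProp.{u} := fun _ _ _ _ N M =>
  ∃ J ξ F, Mod N J ξ F ∧ M22 (Cen N ξ) ∧ ∀ t, ∀ y ∈ M, F.σ t y ∈ M

def P5 : PairProp.{u} := fun K _ _ _ N _ =>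
  ∃ ξ, Sep N ξ ∧ Tr N ξ ∧ M22 (N : Set (K →L[ℂ] K))

def P6 : PairProp.{u} := fun K _ _ _ N _ =>
  ∃ ξ, Cyc N ξ ∧ Tr N ξ ∧ M22 (N : Set (K →L[ℂ] K))

/-! Means on groups. -/

/-- A nonempty finite family of group elements. -/
structure Sample (Γ : Type w) where
  n : ℕ
  s : Fin (n + 1) → Γ

/-- Average over a sample. -/
noncomputable def Sample.av {Γ : Type w} {E : Type*} [AddCommGroup E] [Module ℂ E] (S : Sample Γ)
    (f : Γ → E) : E := ((S.n : ℂ) + 1)⁻¹ • ∑ i, f (S.s i)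

/-- Double average over a sample. -/
noncomputable def Sample.av2 {Γ : Type w} {E : Type*} [AddCommGroup E] [Module ℂ E]
    (S : Sample Γ) (f : Γ → Γ → E) : E := S.av fun s => S.av (f s)

/-- Unitary representation. -/
def URep {Γ : Type w} [Group Γ] {K : Type*} [NormedAddCommGroup K] [InnerProductSpace ℂ K]
    [CompleteSpace K] (U : Γ →* (K →L[ℂ] K)) : Prop := ∀ g, star (U g) = U g⁻¹

/-- A symmetric doubly ergodic mean with coefficients in Hilbert spaces of universe `v`. -/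
structure DM (Γ : Type w) [Group Γ] where
  U : Ultrafilter (Sample Γ)
  symm : ∀ᶠ S in (U : Filter (Sample Γ)),
    ∃ σ : Equiv.Perm (Fin (S.n + 1)), ∀ i, S.s (σ i) = (S.s i)⁻¹
  de : ∀ (K : Type v) [NormedAddCommGroup K] [InnerProductSpace ℂ K] [CompleteSpace K]
    (π : Γ →* (K →L[ℂ] K)), URep π → ∀ (n : Γ → K) (C : ℝ), (∀ g, ‖n g‖ ≤ C) →
    ∃ ζ : K, (∀ g, π g ζ = ζ) ∧ ∀ (g : Γ) (η : K), Tendsto
      (fun S : Sample Γ => ⟪η, S.av2 fun s t => π s⁻¹ (n (s * g * t))⟫_ℂ) U (𝓝 ⟪η, ζ⟫_ℂ)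
  de0 : ∀ (K : Type v) [NormedAddCommGroup K] [InnerProductSpace ℂ K] [CompleteSpace K]
    (π : Γ →* (K →L[ℂ] K)), URep π → ∀ (n : Γ → K) (C : ℝ), (∀ g, ‖n g‖ ≤ C) →
    ∃ ζ : K, (∀ g, π g ζ = ζ) ∧ ∀ η : K, Tendsto
      (fun S : Sample Γ => ⟪η, S.av2 fun s t => π s⁻¹ (n t)⟫_ℂ) U (𝓝 ⟪η, ζ⟫_ℂ)

section Grp

variable {Γ : Type w} [Group Γ] {K : Type v} [NormedAddCommGroup K] [InnerProductSpace ℂ K]
  [CompleteSpace K]

open Classical in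
/-- Weak mean of a bounded vector function. -/
noncomputable def DM.vm (D : DM.{v, w} Γ) (f : Γ → Γ → K) : K :=
  if h : ∃ ζ : K, ∀ η : K, Tendsto (fun S : Sample Γ => ⟪η, S.av2 f⟫_ℂ) D.U (𝓝 ⟪η, ζ⟫_ℂ)
  then h.choose else 0

open Classical in
/-- Weak mean of a bounded operator function. -/
noncomputable def DM.om (D : DM.{v, w} Γ) (f : Γ → Γ → (K →L[ℂ] K)) : K →L[ℂ] K :=
  if h : ∃ T : K →L[ℂ] K, ∀ η : K, T η = D.vm fun s t => f s t η then h.choose else 0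

/-- Bounded function of two group variables. -/
def Bd2 {E : Type*} [Norm E] (f : Γ → Γ → E) : Prop := ∃ C : ℝ, ∀ s t, ‖f s t‖ ≤ C

/-- Two commuting unitary representations. -/
structure Bim (l r : Γ →* (K →L[ℂ] K)) : Prop where
  ul : URep l
  ur : URep r
  comm : ∀ g h, Commute (l g) (r h)

/-- Vectors fixed by the diagonal representation. -/
def Fix (l r : Γ →* (K →L[ℂ] K)) : Set K := {ζ | ∀ g, l g (r g ζ) = ζ}

/-- Left and right representations attached to a separating vector. -/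
structure Std (N : VonNeumannAlgebra K) (ξ : K) (l r : Γ →* (K →L[ℂ] K)) : Prop where
  bim : Bim l r
  l_mem : ∀ g, l g ∈ N
  r_mem : ∀ g, r g ∈ N.commutant
  fix : ξ ∈ Fix l r
  cyc : Cyc N ξ
  sep : Sep N ξ

/-- The ergodic case. -/
structure StdE (N : VonNeumannAlgebra K) (ξ : K) (l r : Γ →* (K →L[ℂ] K)) : Prop where
  std : Std N ξ l r
  erg : ∀ ζ ∈ Fix l r, ∀ ε : ℝ, 0 < ε → ∃ z ∈ N, z ∈ N.commutant ∧ ‖ζ - z ξ‖ ≤ ε
  cen : ∀ z ∈ N, z ∈ N.commutant → z ∈ unitary (K →L[ℂ] K) → ∃ g, l g = z ∧ r g = star z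

/-- Averaging over conjugation. -/
noncomputable def DM.E (D : DM.{v, w} Γ) (l : Γ →* (K →L[ℂ] K)) (T : K →L[ℂ] K) : K →L[ℂ] K :=
  D.om fun s _ => l s⁻¹ * T * l s

/-- The normalising equation for an approximate representation. -/
structure KEq (D : DM.{v, w} Γ) (ε : ℝ) (l : Γ →* (K →L[ℂ] K)) (κ : Γ → (K →L[ℂ] K))
    (Y A : K →L[ℂ] K) : Prop where
  one : κ 1 = 1
  near : ∀ g, ‖κ g - l g‖ ≤ ε
  Y_near : ‖Y - 1‖ ≤ ε
  A_le : ‖A‖ ≤ ε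
  eq : ∀ g, κ g * Y = D.om (fun s t => κ s⁻¹ * κ (s * g * t) * κ t⁻¹) + A * κ g

/-- Defects `a`, `b` of size `η` on the vectors `l k ζ` whose commutators agree up to `γ η`. -/
structure Sys (l r : Γ →* (K →L[ℂ] K)) (a b : Γ → (K →L[ℂ] K)) (ζ : K) (η γ : ℝ) : Prop where
  fix : ζ ∈ Fix l r
  bda : ∃ C : ℝ, ∀ g, ‖a g‖ ≤ C
  bdb : ∃ C : ℝ, ∀ g, ‖b g‖ ≤ C
  a_one : a 1 = 0
  b_one : b 1 = 0
  a_le : ∀ g k, ‖a g (l k ζ)‖ ≤ η
  b_le : ∀ g k, ‖b g (l k ζ)‖ ≤ η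
  comm : ∀ g h k, ‖(a g * r h - r h * a g) (l k ζ) - (b h * l g - l g * b h) (l k ζ)‖ ≤ γ * η

/-- The finishing property. -/
def FinP (ε γ : ℝ) (l r : Γ →* (K →L[ℂ] K)) : Prop :=
  ∀ a b ζ η, Sys l r a b ζ η γ → (∀ g, ‖(a g * r g - r g * a g) ζ‖ ≤ γ * η) →
    ∀ g h, ‖(a g * r h - r h * a g) ζ‖ ≤ ε * η

/-- The gauge operator. -/
noncomputable def DM.X (D : DM.{v, w} Γ) (l r : Γ →* (K →L[ℂ] K)) (a b : Γ → (K →L[ℂ] K)) :
    K →L[ℂ] K :=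
  D.om (fun s _ => l s⁻¹ * a s) + D.om fun s t => l t * (r s⁻¹ * b s) * l t⁻¹

/-- `W` carries the ergodic structure of `N` to `M`. -/
structure Itf (ε : ℝ) (M : VonNeumannAlgebra K) (ξ : K) (l r κ κ' : Γ →* (K →L[ℂ] K))
    (W : K →L[ℂ] K) : Prop where
  std : Std M (W ξ) κ κ'
  W_near : ‖W - 1‖ ≤ ε
  near : ∀ g, ‖κ g - l g‖ ≤ ε
  near' : ∀ g, ‖κ' g - r g‖ ≤ ε
  int : ∀ g, ∀ ζ ∈ Fix l r, κ g (W ζ) = W (l g ζ)
  int' : ∀ g, ∀ ζ ∈ Fix l r, κ' g (W ζ) = W (r g ζ)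

/-- Right multiplication by the elements of `P`. -/
structure RM (P : StarSubalgebra ℂ (K →L[ℂ] K)) (R : (K →L[ℂ] K) → (K →L[ℂ] K)) : Prop where
  cl : IsClosed (P : Set (K →L[ℂ] K))
  add : ∀ x ∈ P, ∀ y ∈ P, R (x + y) = R x + R y
  smul : ∀ c : ℂ, ∀ x ∈ P, R (c • x) = c • R x
  one : R 1 = 1
  mul : ∀ x ∈ P, ∀ y ∈ P, R (x * y) = R y * R x
  star : ∀ x ∈ P, R (star x) = star (R x)
  norm : ∀ x ∈ P, ‖R x‖ ≤ ‖x‖
  comm : ∀ x ∈ P, ∀ y ∈ P, Commute x (R y)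

/-- `l` lists the unitaries of `P` and `r` is the right action. -/
structure Full (P : StarSubalgebra ℂ (K →L[ℂ] K)) (R : (K →L[ℂ] K) → (K →L[ℂ] K))
    (l r : Γ →* (K →L[ℂ] K)) : Prop where
  rm : RM P R
  bim : Bim l r
  mem : ∀ g, l g ∈ P
  surj : ∀ x ∈ P, x ∈ unitary (K →L[ℂ] K) → ∃ g, l g = x
  r_eq : ∀ g, r g = R (l g⁻¹)

end Grp

section Amp

variable {K L : Type*} [NormedAddCommGroup K] [InnerProductSpace ℂ K] [CompleteSpace K]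
  [NormedAddCommGroup L] [InnerProductSpace ℂ L] [CompleteSpace L]

/-- `L` is the Hilbert sum of copies of `K` indexed by `ι`; `P i` is the adjoint of `J i`. -/
structure Amp (ι : Type*) (K L : Type*) [NormedAddCommGroup K] [InnerProductSpace ℂ K]
    [CompleteSpace K] [NormedAddCommGroup L] [InnerProductSpace ℂ L] [CompleteSpace L] where
  J : ι → (K →L[ℂ] L)
  P : ι → (L →L[ℂ] K)
  d : (K →L[ℂ] K) →⋆ₐ[ℂ] (L →L[ℂ] L)
  adj : ∀ i η ζ, ⟪J i η, ζ⟫_ℂ = ⟪η, P i ζ⟫_ℂ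
  PJ : ∀ i η, P i (J i η) = η
  PJ' : ∀ i j, i ≠ j → ∀ η, P i (J j η) = 0
  sum : ∀ ζ, HasSum (fun i => ‖P i ζ‖ ^ 2) (‖ζ‖ ^ 2)
  dJ : ∀ x i η, d x (J i η) = J i (x η)

/-- Matrix entry. -/
noncomputable def Amp.ent {ι : Type*} (A : Amp ι K L) (X : L →L[ℂ] L) (i j : ι) : K →L[ℂ] K :=
  (A.P i).comp (X.comp (A.J j))

/-- Compression along `V`. -/
noncomputable def cmpr (V : K →L[ℂ] L) (x : L →L[ℂ] L) : K →L[ℂ] K :=
  (ContinuousLinearMap.adjoint V).comp (x.comp V)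

/-- Hilbert space ultrapower. -/
structure UP (K L : Type*) [NormedAddCommGroup K] [InnerProductSpace ℂ K]
    [CompleteSpace K] [NormedAddCommGroup L] [InnerProductSpace ℂ L] [CompleteSpace L] where
  q : BoundedContinuousFunction ℕ K →L[ℂ] L
  π : BoundedContinuousFunction ℕ (K →L[ℂ] K) →⋆ₐ[ℂ] (L →L[ℂ] L)
  dense : DenseRange q
  inner : ∀ a b, Tendsto (fun n => ⟪a n, b n⟫_ℂ) (hyperfilter ℕ) (𝓝 ⟪q a, q b⟫_ℂ)
  act : ∀ x a b, (∀ n, b n = x n (a n)) → π x (q a) = q b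

end Amp

section Strip

variable {K : Type*} [NormedAddCommGroup K] [InnerProductSpace ℂ K] [CompleteSpace K]

/-- The open strip `0 < re z < 1`. -/
def ostrip : Set ℂ := Complex.re ⁻¹' Set.Ioo 0 1

/-- The closed strip `0 ≤ re z ≤ 1`. -/
def cstrip : Set ℂ := Complex.re ⁻¹' Set.Icc 0 1

/-- Bounded strongly analytic family on the strip. -/
def SF (G : ℂ → (K →L[ℂ] K)) : Prop :=
  (∀ η, DiffContOnCl ℂ (fun z => G z η) ostrip) ∧ ∃ C : ℝ, ∀ z ∈ cstrip, ‖G z‖ ≤ C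

/-- The operator `Δ ^ (z / 2) fa`. -/
noncomputable def Phi (F : FC K) (z : ℂ) : K →L[ℂ] K :=
  F.f fun s => Complex.exp (z * (s : ℂ) / 2) * fa s

/-- `A` and `B` carry the graph of `F` into the graph of `F'`. -/
def GrMap (F F' : FC K) (A B : K →L[ℂ] K) : Prop :=
  ∀ ρ, ∃ ρ', A (F.f fa ρ) = F'.f fa ρ' ∧ B (F.f fb ρ) = F'.f fb ρ'

/-- The two Tomita graphs are close in every weighted norm. -/
def GrIneq (ε : ℝ) (N M : VonNeumannAlgebra K) (ξ ξ' : K) : Prop :=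
  ∀ x ∈ N, ∀ y ∈ M.commutant, ‖⟪y ξ', x ξ⟫_ℂ - ⟪star x ξ, star y ξ'⟫_ℂ‖ ≤
    ε * (‖x ξ‖ * ‖y ξ'‖ + ‖star x ξ‖ * ‖star y ξ'‖)

end Strip

end Vale.Agent.P096
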